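import Vale.Agent.P283R.Cg.Cor
import Vale.Agent.P283R.Cx.Tpy
import Vale.Agent.P283R.Cy.Mkf

/-!
# P283R, block CG, step 2: the assembly for contractions of any relative dimension, factored
-/

open Set

noncomputable section

namespace Vale.Agent.P283R.Cg

open Vale.Agent.P287D Vale.Agent.P283M Vale.Agent.P297Z Vale.Agent.P283R.Cx Vale.Agent.P283R.Cy
  Vale.Agent.P283R.Cx.Tz

variable {K F : Type} [Field K] [Algebra ℂ K] {n k N q m m' d : ℕ} {s : Fin N → K}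
  {a : Fin N → Fin k → ℤ} {u : Finset K} {Λ Γ Γ' : BD K} {D : Pl K → Fin k → ℤ} {ε : ℝ}

variable (s a) in
/-- the ideal of the relations is finitely generated -/
theorem exists_rel : ∃ (c : ℕ) (f : Fin c → MvPolynomial (Fin N) ℂ), CI s a f := by
  obtain ⟨c, f, h⟩ := Submodule.fg_iff_exists_fin_generating_family.1 (IsNoetherian.noetherian
    (RingHom.ker (MvPolynomial.aeval fun j => AddMonoidAlgebra.single (a j) (s j) :
      MvPolynomial (Fin N) ℂ →ₐ[ℂ] AddMonoidAlgebra K (Fin k → ℤ))))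
  exact ⟨c, f, h.symm⟩

variable (n q ε m' u Λ Γ Γ' D s a) in
/-- the statement for the places which are trivial on the base, for one ring of sections -/
def HzA : Prop := ∀ (y : Fin (n + 1) → K) (h₀ g : K) (e₀ b : Fin k → ℤ),
  Dy n q ε u Λ Γ Γ' y D s a h₀ g e₀ b → ∀ Q : Pl K, (∀ x ∈ Sp s a 0, x ≠ 0 → Q.ord x = 0) →
    MN q m' y s a (h₀ ^ q * g) ((q : ℤ) • e₀ + b) Q

variable [Field F] [Algebra ℂ F] [Algebra K F] [IsScalarTower ℂ K F] {t : Fin k → F}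

/-- the places which are not trivial on the base -/
theorem mn_ver {c : ℕ} {y : Fin d → K} {T : Set (Pl K)} {f : Fin c → MvPolynomial (Fin N) ℂ}
    {h g : K} {δ b : Fin k → ℤ} (hq : 0 < q) (hε : 0 < ε) (x : Ext K d t)
    (cor : CorAp T D s a y t q ε m) (X : Dx q ε y T D s a f h g δ b) {Q : Pl K} (vt : Vt s a Q) :
    MN q m y s a h δ Q := by
  have hy := X.fr
  have t0 := x.ind.ne_zero
  obtain ⟨U, u₀, l, e, d0, w⟩ := lif K F d k y t x hy _ s a Q X.cox.ne vt.1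
  obtain ⟨φ, φ1, φ0, φ2⟩ := vt.2
  have hU := rg_le fun j => (w j).1
  have φ3 : algebraMap K F φ ∈ Rg s a t := hm_deg0 t φ ▸ mem_Rg t0 φ1
  have φ4 : U.rd (algebraMap K F φ) = 0 := (Cb.rd_eq_zero (hU _ φ3)).2 (by
    rw [Cb.mx_iff, l.ord φ]
    exact .inr (mul_pos l.e_pos φ2))
  obtain ⟨c', c1, c2⟩ := Cx.fin _ k a _ u₀ (-((m : ℤ) • δ)) _ d0 w fun r r0 =>
    (cor h g δ b r X.h0 X.g0 X.gs X.eq r0 (Mp.lk hq hε X x) U hU
      fun G hG V hV e _ dv => Mp.hyp hε X x (fun z hz => (hV z hz).1) φ0 ((hV _ φ3).2.1 φ4)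
        hG dv).imp fun _ p => ⟨fun i => by simpa using p.1 i, p.2⟩
  refine ⟨c', c1, ld_pos t0 X.cox.ne l e hq (Nat.pos_of_ne_zero ?_) X.h0 c1 c2⟩
  rintro rfl
  rw [Nat.cast_zero, mul_zero, zero_mul] at c2
  exact c2.not_ge (Finset.sum_nonneg fun j _ =>
    mul_nonneg (Nat.cast_nonneg _) (Int.cast_nonneg (w j).1))

/-- **the assembly**, any number of generators, any relative dimension -/
theorem topy (hq : 0 < q) (hε : 0 < ε) (m2 : 2 ≤ m) (m1 : 1 ≤ m') (x : Ext K (n + 1) t)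
    (cor : ∀ y : Fin (n + 1) → K, Frm y → CorAp (Tt n u Λ) D s a y t q ε m)
    (hz : HzA n q m' s a u Λ Γ Γ' D ε) (A : Dat n u Λ Γ Γ') (cx : Cox (Tt n u Λ) D s a)
    (h1 : ∃ h e, Eqv (Tt n u Λ) D (cn K (n + 1)) h e)
    (h2 : ∃ h e, Eqv (Tt n u Λ) D ((q : ℝ) • -dsc (n + 1) Γ) h e)
    (bd : ∀ P ∈ Tt n u Λ, dsc (n + 1) Γ P ≤ 0) (lc : ∀ P, Ov u P → ε ≤ 1 + dsc (n + 1) Γ P)
    (nef : NefO n K u (-Γ)) : Cpl n (q * (m * m')) u Λ Γ := by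
  obtain ⟨h₁, e₁, e'⟩ := h1
  obtain ⟨g, b, e⟩ := h2
  obtain ⟨y, E, hy, hc⟩ := Cb.exists_cn A.ff
  have z : Dy n q ε u Λ Γ Γ' y D s a h₁ g e₁ b :=
    ⟨A, ⟨E, hy⟩, hc, cx, hc ▸ e', e, bd, lc, fun _ => Br.klr A A.dn.neg nef⟩
  obtain ⟨c, f, ci⟩ := exists_rel s a
  have w := Tpy.dx hq z ci
  refine bak n k _ q _ K u Λ Γ Γ' D s a y _ _ A cx ⟨E, hy⟩ hc
    (m2.trans ((Nat.le_mul_of_pos_right _ m1).trans (Nat.le_mul_of_pos_left _ hq))) (Hwr.eqv' z)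
    fun Q o => ?_
  by_cases v : ∃ x ∈ Sp s a 0, x ≠ 0 ∧ 0 < Q.ord x
  · exact Tpy.mn_mul m1 (mn_ver hq hε x (cor y ⟨E, hy⟩) w ⟨fun c hc => Bak.reg A cx
      (Finset.prod_ne_zero_iff.2 fun j _ => pow_ne_zero _ (cx.ne j)) (hc ▸ mon_mem s a c) o, v⟩)
  · rw [mul_comm m]
    exact Tpy.mn_mul (by omega) (hz y h₁ g e₁ b z Q fun φ hφ φ0 =>
      (not_lt.1 fun p => v ⟨φ, hφ, φ0, p⟩).antisymm (Bak.reg A cx φ0 hφ o))

end Vale.Agent.P283R.Cg
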