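import Vale.Agent.P283R.Cx.Bas
import Vale.Agent.P283R.Tp.Fre

/-!
# P283R, block CG: finitely many homogeneous generators
-/

open Set

noncomputable section

namespace Vale.Agent.P283R.Cg.Gen

open Vale.Agent.P287D Vale.Agent.P283R.Cx Vale.Agent.P283R.Fre MulSemiringAction

/-- the invariants of a finite group are finitely generated -/
theorem fg_inv {K F : Type} [Field K] [Algebra ℂ K] [Field F] [Algebra ℂ F] [Algebra K F]
    [IsScalarTower ℂ K F] {G : Subgroup (F ≃ₐ[ℂ] F)} {S : Subalgebra ℂ F} {A : Subalgebra ℂ K}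
    (fg : S.FG) (fin : Finite G) (stab : Stab G S)
    (fix : ∀ h ∈ S, Fix G h → h ∈ range (algebraMap K F))
    (mem : ∀ a, a ∈ A ↔ algebraMap K F a ∈ S) : A.FG := by
  have := Fintype.ofFinite G
  let ι : A →+* S := (algebraMap K F).restrict A S fun a ha => (mem a).1 ha
  let _ : Algebra A S := ι.toAlgebra
  have : IsScalarTower A S F := .of_algebraMap_eq fun _ => rfl
  have : IsScalarTower ℂ A S := .of_algebraMap_eq fun c =>
    Subtype.ext (IsScalarTower.algebraMap_apply ℂ K F c)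
  have : Algebra.IsIntegral A S := ⟨fun s => by
    refine (isIntegral_algHom_iff (IsScalarTower.toAlgHom A S F) Subtype.val_injective).1
      (int_of (monic_charpoly G (s : F)) (fun i => ?_) (eval_charpoly G _))
    have m : (charpoly G (s : F)).coeff i ∈ S :=
      coeff_mem S.toSubring (fun σ => stab σ σ.2 _ s.2) i
    obtain ⟨a, ha⟩ := fix _ m (coeff_fix (s : F) i)
    exact ⟨⟨a, (mem a).2 (ha ▸ m)⟩, ha⟩⟩
  have ft : Algebra.FiniteType ℂ S := (Subalgebra.fg_iff_finiteType S).1 fg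
  have : Algebra.FiniteType A S := .of_restrictScalars_finiteType ℂ A S
  have fi : Module.Finite A S := Algebra.IsIntegral.finite
  exact (Subalgebra.fg_top A).1 (fg_of_fg_of_fg ℂ A S ft.out fi.fg_top fun a b h =>
    Subtype.ext ((algebraMap K F).injective (congrArg Subtype.val h)))

theorem fg_gq {K F : Type} [Field K] [Algebra ℂ K] [Field F] [Algebra ℂ F] [Algebra K F]
    [IsScalarTower ℂ K F] {N : ℕ} {G : Subgroup (F ≃ₐ[ℂ] F)} {S : Subalgebra ℂ F}
    {A : Subalgebra ℂ K} (h : Gq N G S A) : A.FG :=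
  fg_inv h.aff.fg h.fin h.stab (fun x _ => (h.fix x).1) h.mem

variable {K F : Type} [Field K] [Algebra ℂ K] [Field F] [Algebra ℂ F] [Algebra K F] {k : ℕ}
  {t : Fin k → F}

omit [Algebra ℂ K] [Algebra ℂ F] in
theorem lv_eq (ht : AlgebraicIndependent K t) {ψ ψ' : (Fin k → ℤ) →₀ K}
    (h : lv t ψ = lv t ψ') : ψ = ψ' := by
  refine sub_eq_zero.1 (lv_inj ht ?_)
  have := lv_add t (ψ - ψ') ψ'
  rw [sub_add_cancel, h] at this
  exact left_eq_add.1 (this.trans (add_comm _ _))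

omit [Algebra ℂ K] [Algebra ℂ F] in
theorem hm_iff (ht : AlgebraicIndependent K t) {A : (Fin k → ℤ) → K → Prop} (h0 : ∀ e, A e 0)
    (φ : K) (e : Fin k → ℤ) :
    (∃ ψ : (Fin k → ℤ) →₀ K, (∀ e, A e (ψ e)) ∧ lv t ψ = hm t φ e) ↔ A e φ := by
  classical
  refine ⟨fun ⟨ψ, h1, h2⟩ => ?_, fun h => ⟨Finsupp.single e φ, fun x => ?_, lv_single t _ _⟩⟩
  · rw [← lv_single] at h2
    simpa [lv_eq ht h2] using h1 e
  · rw [Finsupp.single_apply]
    split_ifs with c
    exacts [c ▸ h, h0 x]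

/-- a finitely generated graded subalgebra has finitely many homogeneous generators -/
theorem gen_of [IsScalarTower ℂ K F] (ht : AlgebraicIndependent K t)
    {A : (Fin k → ℤ) → K → Prop} (h0 : ∀ e, A e 0) {R : Subalgebra ℂ F}
    (hR : ∀ b, b ∈ R ↔ ∃ ψ : (Fin k → ℤ) →₀ K, (∀ e, A e (ψ e)) ∧ lv t ψ = b) (fg : R.FG) :
    ∃ (N : ℕ) (s : Fin N → K) (a : Fin N → Fin k → ℤ), (∀ j, s j ≠ 0) ∧ Rg s a t = R ∧
      ∀ e φ, φ ∈ Sp s a e ↔ A e φ := by
  classical
  obtain ⟨T, rfl⟩ := fg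
  choose ψ h1 h2 using fun b : T => (hR b).1 (Algebra.subset_adjoin b.2)
  let ι := Σ b : T, (ψ b).support
  let e := (Fintype.equivFin ι).symm
  have E : Rg (fun j => ψ (e j).1 (e j).2) (fun j => (e j).2) t = Algebra.adjoin ℂ (T : Set F) := by
    refine le_antisymm (Algebra.adjoin_le ?_) (Algebra.adjoin_le fun b hb => ?_)
    · rintro _ ⟨j, rfl⟩
      exact (hR _).2 ((hm_iff ht h0 _ _).2 (h1 _ _))
    · have := h2 ⟨b, hb⟩
      rw [← show lv t (ψ ⟨b, hb⟩) = b from this]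
      refine sum_mem fun x hx => ?_
      have k : ∀ i : ι, hm t (ψ i.1 i.2) i.2 ∈
          Rg (fun j => ψ (e j).1 (e j).2) (fun j => (e j).2) t := fun i => by
        obtain ⟨j, rfl⟩ := e.surjective i
        exact gen_mem _ _ t j
      exact k ⟨⟨b, hb⟩, x, hx⟩
  refine ⟨_, _, _, fun j => Finsupp.mem_support_iff.1 (e j).2.2, E, fun x φ => ?_⟩
  rw [← hm_iff ht h0, ← hR, ← E, mem_Rg_iff ht.ne_zero]
  exact (hm_iff ht (A := fun e φ => φ ∈ Sp _ _ e) (fun _ => zero_mem _) φ x).symm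

end Vale.Agent.P283R.Cg.Gen
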