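import Vale.Agent.P283R.Cg.St
import Vale.Agent.P283R.Cg.Gen0
import Vale.Agent.P283R.Cx.Gp
import Vale.Agent.P283R.Br.Glue
import Vale.Agent.P283R.Tp.Quo

/-!
# P283R, block CG: from the text to the rows
-/

open Set

noncomputable section

namespace Vale.Agent.P283R.Cg

open Vale.Agent.P287D Vale.Agent.P283M Vale.Agent.P283R.Cx
open Vale.Agent.P283R.Sl (Laurent RatT)
open Vale.Agent.P283R.To (mon)

namespace Adp

variable (K : Type) [Field K] (k : ℕ)

/-- the variables -/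
def tt : Fin k → RatT K k := fun i => algebraMap (Laurent K k) _ (.single (Pi.single i 1) 1)

variable {K k}

theorem alg_single (m : Fin k → ℤ) (φ : K) :
    algebraMap (Laurent K k) (RatT K k) (.single m φ) = hm (tt K k) φ m := by
  let g : Multiplicative (Fin k → ℤ) →* RatT K k :=
    (algebraMap (Laurent K k) (RatT K k)).toMonoidHom.comp (AddMonoidAlgebra.of K _)
  have e : Multiplicative.ofAdd m = ∏ i, Multiplicative.ofAdd (Pi.single i (1 : ℤ)) ^ m i := by
    simp only [← ofAdd_zsmul, ← ofAdd_sum]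
    congr 1
    funext j
    simp [Finset.sum_apply, Pi.single_apply]
  have h := congrArg g e
  rw [map_prod] at h
  simp only [map_zpow] at h
  have h' : algebraMap (Laurent K k) (RatT K k) (.single m 1) = mon (tt K k) m := h
  rw [hm, ← h', IsScalarTower.algebraMap_apply K (Laurent K k) (RatT K k), ← map_mul]
  congr 1
  simp [AddMonoidAlgebra.single_mul_single]

theorem alg_lv (ψ : Laurent K k) :
    algebraMap (Laurent K k) (RatT K k) ψ = lv (tt K k) ψ.coeff := by
  induction ψ using AddMonoidAlgebra.induction_linear with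
  | zero => rw [map_zero]; exact (lv_zero _).symm
  | add a b ha hb => rw [map_add, AddMonoidAlgebra.coeff_add, lv_add, ha, hb]
  | single m φ => rw [alg_single, AddMonoidAlgebra.coeff_single, lv_single]

theorem ind : AlgebraicIndependent K (tt K k) := by
  let φ : (Fin k →₀ ℕ) →+ (Fin k → ℤ) :=
    { toFun m i := m i
      map_zero' := by ext; simp
      map_add' := fun a b => by ext; simp }
  have hφ : Function.Injective φ := fun a b h =>
    Finsupp.ext fun i => Int.natCast_inj.1 (congrFun h i)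
  have e : (MvPolynomial.aeval (tt K k) : MvPolynomial (Fin k) K →ₐ[K] RatT K k) =
      (IsScalarTower.toAlgHom K (Laurent K k) _).comp (AddMonoidAlgebra.mapDomainAlgHom K K φ) :=
    MvPolynomial.algHom_ext fun i => by
      rw [MvPolynomial.aeval_X]
      refine congrArg (algebraMap (Laurent K k) (RatT K k)) ?_
      refine Eq.trans ?_ (AddMonoidAlgebra.mapDomain_single (f := φ) (a := Finsupp.single i 1)
        (r := (1 : K))).symm
      congr 1
      funext j
      simp [φ, Pi.single_apply, Finsupp.single_apply, eq_comm]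
  rw [AlgebraicIndependent, e]
  exact (IsFractionRing.injective (Laurent K k) _).comp (AddMonoidAlgebra.mapDomain_injective hφ)

theorem gen : IntermediateField.adjoin K (range (tt K k)) = ⊤ := by
  refine eq_top_iff.2 fun x _ => ?_
  obtain ⟨a, b, -, rfl⟩ := IsFractionRing.div_surjective (A := Laurent K k) x
  have m : ∀ p : Laurent K k, algebraMap _ (RatT K k) p ∈
      IntermediateField.adjoin K (range (tt K k)) := fun p => by
    rw [alg_lv]
    exact sum_mem fun e _ => mul_mem (IntermediateField.algebraMap_mem _ _)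
      (prod_mem fun i _ => zpow_mem (IntermediateField.subset_adjoin _ _ (mem_range_self i)) _)
  exact div_mem (m a) (m b)

variable [Algebra ℂ K]

theorem ext {d : ℕ} (hK : FF K d) : Ext K d (tt K k) := ⟨hK, Gp.ff hK ind gen, ind, gen⟩

/-- the presentation on the tier -/
theorem quo {F S : Type} [Field F] [Algebra ℂ F] [CommRing S] [Algebra ℂ S] {c : ℕ} {A₀ : Set F}
    {I : Ideal S} [I.IsPrime] {G : Subgroup (S ≃ₐ[ℂ] S)} {i : F →ₐ[ℂ] FractionRing (S ⧸ I)}
    (l : Sl.IsQuot c A₀ I G i) : letI := i.toRingHom.toAlgebra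
    ∃ (A : Subalgebra ℂ F) (f : Fin c → S), (∀ b, b ∈ A ↔ b ∈ A₀) ∧
      ((∀ a : F, ∃ b ∈ A, ∃ b' ∈ A, b' ≠ 0 ∧ a = b / b') → Quo (Br.qm I) f G A) := by
  obtain ⟨dom, sm, -, ⟨ht, f, hF⟩, nor, fin, st, fr, inv⟩ := l
  let L := FractionRing (S ⧸ I)
  let j : (S ⧸ I) →ₐ[ℂ] L := IsScalarTower.toAlgHom ℂ _ _
  have hj : Function.Injective j := IsFractionRing.injective (S ⧸ I) L
  let q : S →ₐ[ℂ] L := Br.qm I
  have q0 : ∀ s, q s = 0 ↔ s ∈ I := fun s =>
    (map_eq_zero_iff j hj).trans Ideal.Quotient.eq_zero_iff_mem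
  have hk : RingHom.ker q = I := Ideal.ext q0
  let _ : Algebra F L := i.toRingHom.toAlgebra
  have rg : q.range = j.range := le_antisymm (by rintro _ ⟨s, rfl⟩; exact ⟨_, rfl⟩) (by
    rintro _ ⟨s, rfl⟩
    obtain ⟨s, rfl⟩ := Ideal.Quotient.mk_surjective s
    exact ⟨s, rfl⟩)
  let V : Subalgebra ℂ S :=
    { carrier := {s | ∀ g ∈ G, q (g s) = q s}
      mul_mem' := fun a b g hg => by simp only [map_mul, a g hg, b g hg]
      add_mem' := fun a b g hg => by simp only [map_add, a g hg, b g hg]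
      algebraMap_mem' := fun r g _ => by rw [g.commutes] }
  have e : ∀ s, (∀ g ∈ G, q (g s) = q s) ↔ ∀ g ∈ G, g s - s ∈ I := fun s =>
    forall₂_congr fun g _ => by rw [← q0, map_sub, sub_eq_zero]
  have w : ∀ b, (∃ a ∈ A₀, i a = b) ↔ ∃ s, (∀ g ∈ G, q (g s) = q s) ∧ q s = b := fun b =>
    (inv b).trans (exists_congr fun s => and_congr_left' (e s).symm)
  have mA : ∀ b, b ∈ (V.map q).comap i ↔ b ∈ A₀ := fun b =>
    (w (i b)).symm.trans ⟨fun ⟨a, ha, h⟩ => i.injective h ▸ ha, fun h => ⟨b, h, rfl⟩⟩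
  refine ⟨(V.map q).comap i, f, mA, fun frK => ⟨dom, sm, hk.trans hF,
    (congrArg Ideal.height hk).trans ht, fun b => ?_, fun b hb => ?_, fin,
    fun g hg s hs => (q0 _).2 (st g hg s ((q0 s).1 hs)),
    fun g hg g1 P hP a b => ht ▸ fr g hg g1 P hP (hk ▸ a) b, fun b => ?_, frK⟩⟩
  · obtain ⟨s, t, t0, rfl⟩ := IsFractionRing.div_surjective (A := S ⧸ I) b
    obtain ⟨s, rfl⟩ := Ideal.Quotient.mk_surjective s
    obtain ⟨t, rfl⟩ := Ideal.Quotient.mk_surjective t
    exact ⟨s, t, (map_ne_zero_iff j hj).2 (nonZeroDivisors.ne_zero t0), rfl⟩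
  · rw [rg] at hb ⊢
    let e := AlgEquiv.ofInjective j hj
    have := hb.map_of_comp_eq (e.symm : j.range →+* S ⧸ I) (RingHom.id L)
      (RingHom.ext fun a => congrArg Subtype.val (e.apply_symm_apply a))
    exact IsIntegrallyClosed.isIntegral_iff.1 this
  · exact Iff.trans (exists_congr fun a => and_congr_left' (mA a)) (w b)

end Adp

open Adp in
/-- **ADP** -/
theorem adp_of (grq : GRQ) : ADP := by
  rintro K _ _ d k T D hK ⟨c, e, S, _, _, I, G, i, θ, e0, l, h1, h2, h3⟩ fin den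
  have := l.prime
  have x : Ext K d (tt K k) := Adp.ext hK
  have t0 := x.ind.ne_zero
  let L := FractionRing (S ⧸ I)
  let _ : Algebra (RatT K k) L := i.toRingHom.toAlgebra
  have : IsScalarTower ℂ (RatT K k) L := .of_algebraMap_eq fun c => (i.commutes c).symm
  obtain ⟨A, f, mA, Q⟩ := Adp.quo l
  have s0 : ∀ e, (0 : K) ∈ Sec T D e := fun _ h => (h rfl).elim
  have hA : ∀ b, b ∈ A ↔ ∃ ψ : (Fin k → ℤ) →₀ K, (∀ e, ψ e ∈ Sec T D e) ∧ lv (tt K k) ψ = b :=
    fun b => (mA b).trans ⟨fun ⟨p, hp, w⟩ => ⟨p.coeff, hp, (alg_lv p).symm.trans w⟩,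
      fun ⟨ψ, hp, w⟩ => ⟨.ofCoeff ψ, hp, (alg_lv _).trans w⟩⟩
  have hm_mem : ∀ e, ∀ φ ∈ Sec T D e, hm (tt K k) φ e ∈ A := fun e φ h =>
    (hA _).2 ((Gen.hm_iff x.ind s0 φ e).2 h)
  have clr : ∀ p : Laurent K k, ∃ c ∈ A, c ≠ 0 ∧ c * algebraMap _ (RatT K k) p ∈ A := fun p => by
    induction p using AddMonoidAlgebra.induction_linear with
    | zero => exact ⟨1, one_mem A, one_ne_zero, by simp⟩
    | add a b ha hb =>
      obtain ⟨u, u1, u2, u3⟩ := ha
      obtain ⟨v, v1, v2, v3⟩ := hb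
      refine ⟨u * v, mul_mem u1 v1, mul_ne_zero u2 v2, ?_⟩
      convert add_mem (mul_mem v1 u3) (mul_mem u1 v3) using 1
      rw [map_add]; ring
    | single m φ =>
      obtain ⟨e', ψ, a1, a2, a3⟩ := den φ m
      refine ⟨_, hm_mem _ _ a1, hm_ne t0 a2 _, ?_⟩
      rw [alg_single, mul_comm, ← hm_mul t0]
      exact hm_mem _ _ a3
  have Q := Q fun b => by
    obtain ⟨p, p', p0, rfl⟩ := IsFractionRing.div_surjective (A := Laurent K k) b
    obtain ⟨u, u1, u2, u3⟩ := clr p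
    obtain ⟨v, v1, v2, v3⟩ := clr p'
    have := (map_ne_zero_iff _ (IsFractionRing.injective (Laurent K k) (RatT K k))).2
      (nonZeroDivisors.ne_zero p0)
    refine ⟨_, mul_mem v1 u3, _, mul_mem u1 v3, mul_ne_zero u2 (mul_ne_zero v2 this), ?_⟩
    field_simp
  obtain ⟨N, s, a, s1, rfl, s2⟩ := Gen.gen_of x.ind s0 hA (Gen.fg_gq (Qu.gq x.ff' Q))
  have q0 : ∀ s, Br.qm I s = 0 ↔ s ∈ I := fun s =>
    (map_eq_zero_iff _ (IsFractionRing.injective (S ⧸ I) L)).trans Ideal.Quotient.eq_zero_iff_mem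
  refine ⟨RatT K k, _, _, _, inferInstance, tt K k, N, s, a, x, ⟨s1, fun e φ φ0 => (s2 e φ).trans
    ⟨fun h => h φ0, fun h _ => h⟩, fin, fun φ => ?_, fun e => ?_⟩, fun r H r0 hH =>
    grq K _ L S d k N c e r _ s a (Br.qm I) f G θ H x Q e0 h1
      (fun τ y h => (q0 _).2 (h2 τ y ((q0 y).1 h))) (fun τ φ m y h => ?_) r0 hH⟩
  · obtain ⟨e', ψ, a1, a2, a3⟩ := den φ 0
    rw [zero_add] at a3
    exact ⟨e', _, (s2 _ _).2 a3, _, (s2 _ _).2 a1, a2, (mul_div_cancel_right₀ φ a2).symm⟩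
  · obtain ⟨e', ψ, a1, a2, a3⟩ := den 1 e
    rw [one_mul] at a3
    exact ⟨e', _, (s2 _ _).2 a3, _, (s2 _ _).2 a1, a2, a2⟩
  · have := (q0 _).2 (h3 τ m φ y (by rw [alg_single]; exact h))
    rwa [map_sub, sub_eq_zero, Units.smul_def, map_smul, ← Units.smul_def] at this

end Vale.Agent.P283R.Cg
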