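import Vale.Agent.P283R.Cg.St
import Vale.Agent.P283R.Cx.Grp
import Vale.Agent.P283R.Tp.Quo
import Vale.Agent.P283R.Tp.Quo2

/-!
# P283R, block CG: the finite group generated by `G` and the torsion of the torus
-/

open Set

noncomputable section

namespace Vale.Agent.P283R.Cg

open Vale.Agent.P287D Vale.Agent.P283R.Cx

namespace Gz

variable {F L S : Type} [Field F] [Algebra ℂ F] [Field L] [Algebra ℂ L] [Algebra F L]
  [CommRing S] [Algebra ℂ S] {c d k : ℕ} {q : S →ₐ[ℂ] L} {f : Fin c → S}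
  {G G' : Subgroup (S ≃ₐ[ℂ] S)} {A : Subalgebra ℂ F}

theorem hom (h : Quo q f G A) (st : ∀ g ∈ G', ∀ s, q s = 0 → q (g s) = 0) {g : S ≃ₐ[ℂ] S}
    (hg : g ∈ G') : ∃ σ : L →ₐ[ℂ] L, ∀ s, σ (q s) = q (g s) := by
  have := Qu.frac h
  let φ : q.range →ₐ[ℂ] L := AlgHom.liftOfSurjective q.rangeRestrict q.rangeRestrict_surjective
    (q.comp g.toAlgHom) fun s hs => st g hg s (congrArg Subtype.val hs)
  have e : ∀ s, φ (q.rangeRestrict s) = q (g s) := fun s =>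
    AlgHom.liftOfSurjective_apply _ _ _ _ s
  have i : Function.Injective φ := (injective_iff_map_eq_zero φ).2 fun a ha => by
    obtain ⟨s, rfl⟩ := q.rangeRestrict_surjective a
    have := st g⁻¹ (inv_mem hg) _ ((e s).symm.trans ha)
    exact Subtype.ext ((congrArg q (g.symm_apply_apply s)).symm.trans this)
  exact ⟨IsFractionRing.liftAlgHom i, fun s =>
    (IsFractionRing.lift_algebraMap i (q.rangeRestrict s)).trans (e s)⟩

theorem aut (h : Quo q f G A) (st : ∀ g ∈ G', ∀ s, q s = 0 → q (g s) = 0) {g : S ≃ₐ[ℂ] S}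
    (hg : g ∈ G') : ∃ σ : L ≃ₐ[ℂ] L, ∀ s, σ (q s) = q (g s) := by
  obtain ⟨σ, a⟩ := hom h st hg
  obtain ⟨τ, b⟩ := hom h st (inv_mem hg)
  exact ⟨.ofAlgHom σ τ (Qu.ext h fun s => by
      rw [AlgHom.comp_apply, b, a]; exact congrArg q (g.apply_symm_apply s))
    (Qu.ext h fun s => by
      rw [AlgHom.comp_apply, a, b]; exact congrArg q (g.symm_apply_apply s)), a⟩

theorem fin (h : Quo q f G A) (st : ∀ g ∈ G', ∀ s, q s = 0 → q (g s) = 0) [Finite G'] :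
    Finite (Qu.im q G') := by
  choose σ hσ using fun g : G' => aut h st g.2
  refine Finite.of_surjective (fun g : G' => (⟨σ g, g, g.2, hσ g⟩ : Qu.im q G')) ?_
  rintro ⟨τ, g, a, b⟩
  exact ⟨⟨g, a⟩, Subtype.ext (AlgEquiv.coe_toAlgHom_injective
    (Qu.ext h fun s => (hσ ⟨g, a⟩ s).trans (b s).symm))⟩

theorem lci (hL : FF L d) (h : Quo q f G A) (st : ∀ g ∈ G', ∀ s, q s = 0 → q (g s) = 0)
    [Finite G'] : ∃ (F' : Type) (_ : Field F') (_ : Algebra ℂ F') (G₁ : Subgroup (F' ≃ₐ[ℂ] F'))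
      (S' : Subalgebra ℂ F') (π : S' →ₐ[ℂ] q.range) (f' : Fin c → S'),
      Lci d (Qu.im q G') q.range G₁ S' π f' := by
  have := h.dom
  have := h.sm
  let ι := IsScalarTower.toAlgHom ℂ S (FractionRing S)
  have i : Function.Injective ι := IsFractionRing.injective S _
  let e := AlgEquiv.ofInjective ι i
  have k : ∀ (g : S ≃ₐ[ℂ] S) (σ : L ≃ₐ[ℂ] L), (∀ s, σ (q s) = q (g s)) → ∀ a b : ι.range,
      Qw.up g a = b → σ (q (e.symm a)) = q (e.symm b) := fun g σ w a b ab => by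
    obtain ⟨a, rfl⟩ := e.surjective a
    obtain ⟨b, rfl⟩ := e.surjective b
    rw [e.symm_apply_apply, e.symm_apply_apply, w, i ((Qw.up_map g a).symm.trans ab)]
  refine ⟨FractionRing S, inferInstance, inferInstance, G'.map Qw.up, ι.range,
    q.rangeRestrict.comp e.symm.toAlgHom, fun j => e (f j), ⟨Qw.ff q hL h.frL h.ht, ?_,
    fun a => ?_⟩, .of_equiv e, .of_surjective _ (Qw.up.subgroupMap_surjective G'), ?_,
    q.rangeRestrict_surjective.comp e.symm.surjective, ?_, fun σ hσ => ?_, ?_⟩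
  · rw [← Algebra.map_top]
    exact Subalgebra.FG.map _ Algebra.FiniteType.out
  · obtain ⟨s, t, -, rfl⟩ := IsFractionRing.div_surjective (A := S) a
    exact ⟨e s, e t, rfl⟩
  · rintro _ ⟨g, -, rfl⟩ _ ⟨s, rfl⟩
    exact ⟨g s, (Qw.up_map g s).symm⟩
  · rw [show range (fun j => e (f j)) = e '' range f from range_comp e f, ← Ideal.map_span,
      ← h.ker]
    ext a
    obtain ⟨a, rfl⟩ := e.surjective a
    rw [Ideal.mem_map_iff_of_surjective e e.surjective, RingHom.mem_ker, Subtype.ext_iff]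
    refine ⟨fun z => ⟨a, (congrArg q (e.symm_apply_apply a)).symm.trans z, rfl⟩, ?_⟩
    rintro ⟨b, z, w⟩
    exact (congrArg q (w ▸ e.symm_apply_apply b)).trans z
  · obtain ⟨g, a, b⟩ := hσ
    exact ⟨_, ⟨g, a, rfl⟩, k g σ b⟩
  · rintro _ ⟨g, a, rfl⟩
    obtain ⟨σ, b⟩ := aut h st a
    exact ⟨σ, ⟨g, a, b⟩, k g σ b⟩

/-- the group `G θ(μ_n)` -/
def big (G : Subgroup (S ≃ₐ[ℂ] S)) (θ : (Fin k → ℂˣ) →* (S ≃ₐ[ℂ] S))
    (h : ∀ τ, ∀ g ∈ G, θ τ * g = g * θ τ) (n : ℕ) : Subgroup (S ≃ₐ[ℂ] S) where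
  carrier := {σ | ∃ g ∈ G, ∃ τ : Fin k → ℂˣ, τ ^ n = 1 ∧ σ = g * θ τ}
  one_mem' := ⟨1, one_mem _, 1, one_pow _, by rw [map_one, one_mul]⟩
  mul_mem' := by
    rintro _ _ ⟨g, a, τ, b, rfl⟩ ⟨g', a', τ', b', rfl⟩
    exact ⟨g * g', mul_mem a a', τ * τ', by rw [mul_pow, b, b', one_mul], by
      rw [map_mul, mul_assoc, mul_assoc, ← mul_assoc (θ τ), h τ g' a', mul_assoc]⟩
  inv_mem' := by
    rintro _ ⟨g, a, τ, b, rfl⟩
    exact ⟨g⁻¹, inv_mem a, τ⁻¹, by rw [inv_pow, b, inv_one], by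
      rw [mul_inv_rev, ← map_inv, h _ _ (inv_mem a)]⟩

theorem fin_big [Finite G] (θ : (Fin k → ℂˣ) →* (S ≃ₐ[ℂ] S))
    (h : ∀ τ, ∀ g ∈ G, θ τ * g = g * θ τ) {n : ℕ} (n0 : 0 < n) : Finite (big G θ h n) := by
  have : NeZero n := ⟨n0.ne'⟩
  refine Finite.of_surjective (fun p : G × (Fin k → rootsOfUnity n ℂ) =>
    (⟨p.1 * θ fun j => p.2 j, p.1, p.1.2, _, funext fun j => (p.2 j).2, rfl⟩ : big G θ h n)) ?_
  rintro ⟨_, g, a, τ, b, rfl⟩
  exact ⟨(⟨g, a⟩, fun j => ⟨τ j, congrFun b j⟩), rfl⟩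

end Gz

open Gz in
theorem grq : GRQ := by
  intro K F L S _ _ _ _ _ _ _ _ _ _ _ _ d k N c e r t s a q f G θ H x h e0 cm st ac r0 hH
  have := h.fin
  have := fin_big θ cm (Nat.mul_pos e0 r0)
  have st' : ∀ g ∈ big G θ cm (e * r), ∀ s, q s = 0 → q (g s) = 0 := by
    rintro _ ⟨g, a, τ, -, rfl⟩ s z
    exact h.stab g a _ (st τ s z)
  have gq := Qu.gq x.ff' h
  obtain ⟨F', _, _, G', S', π, f', l⟩ := lci gq.aff.ff h st'
  have key : ∀ (σ : L ≃ₐ[ℂ] L) (ρ : F ≃ₐ[ℂ] F) (τ : Fin k → ℂˣ), ∀ g ∈ G,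
      (∀ s, σ (q s) = q ((g * θ τ) s)) → (∀ φ : K, ρ (algebraMap K F φ) = algebraMap K F φ) →
      (∀ i, ρ (t i) = ((τ i : ℂ) ^ e) • t i) →
      ∀ y, σ (algebraMap F L y) = algebraMap F L (ρ y) := fun σ ρ τ g hg h1 h2 h3 y => by
    have k : ∀ y ∈ Rg s a t, σ (algebraMap F L y) = algebraMap F L (ρ y) := fun y hy => by
      induction hy using Algebra.adjoin_induction with
      | mem y hy =>
        obtain ⟨j, rfl⟩ := hy
        obtain ⟨z, z1, z2⟩ := (h.inv _).1 ⟨_, gen_mem s a t j, rfl⟩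
        have w := h.stab g hg (θ τ z - (∏ i, τ i ^ (e * a j i)) • z) (by
          rw [map_sub, ac τ _ _ z z2.symm, Units.smul_def, Units.smul_def, map_smul, sub_self])
        rw [Units.smul_def, map_sub, map_smul, map_sub, map_smul, sub_eq_zero, z1 g hg] at w
        beta_reduce
        rw [Grp.map_hm h2 h3, ← z2, h1, AlgEquiv.mul_apply, w, z2, Algebra.smul_def,
          Algebra.smul_def, map_mul, ← IsScalarTower.algebraMap_apply]
        simp [zpow_mul]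
      | algebraMap y => rw [ρ.commutes, ← IsScalarTower.algebraMap_apply, σ.commutes]
      | add y z _ _ u v => rw [map_add, map_add, map_add, map_add, u, v]
      | mul y z _ _ u v => rw [map_mul, map_mul, map_mul, map_mul, u, v]
    obtain ⟨b, hb, b', hb', -, rfl⟩ := h.frK y
    rw [map_div₀, map_div₀, map_div₀, map_div₀, k b hb, k b' hb']
  refine ⟨L, inferInstance, inferInstance, inferInstance, inferInstance, Qu.im q G,
    Qu.im q (big G θ cm (e * r)), q.range, c, F', _, _, G', S', π, f', gq, ?_, fin h st', ?_, l,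
    ?_, fun ρ hρ => ?_⟩
  · rintro σ ⟨g, a, b⟩
    exact ⟨g, ⟨g, a, 1, one_pow _, by rw [map_one, mul_one]⟩, b⟩
  · rintro σ ⟨g, -, b⟩ _ ⟨y, rfl⟩
    exact ⟨g y, (b y).symm⟩
  · rintro σ ⟨_, ⟨g, a, τ, b, rfl⟩, w⟩
    obtain ⟨ρ, h2, h3⟩ := Grp.aut x (c := fun i => (τ i : ℂ) ^ e) fun i => pow_ne_zero _ (τ i).ne_zero
    refine ⟨ρ, (hH ▸ ⟨h2, fun i => ⟨_, ?_, h3 i⟩⟩ : ρ ∈ (H : Set _)), key σ ρ τ g a w h2 h3⟩
    rw [← pow_mul, ← Units.val_pow_eq_pow_val, ← Pi.pow_apply, b]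
    rfl
  · obtain ⟨h2, h3⟩ : ρ ∈ Gr K t r := hH ▸ hρ
    choose u u1 u2 using h3
    choose v hv using fun i => IsAlgClosed.exists_pow_nat_eq (u i) e0
    have v0 : ∀ i, v i ≠ 0 := fun i z => by simpa [← hv i, z, e0.ne', r0.ne'] using u1 i
    have m : θ (fun i => Units.mk0 (v i) (v0 i)) ∈ big G θ cm (e * r) :=
      ⟨1, one_mem _, _, funext fun i => Units.ext (by simp [pow_mul, hv, u1]), (one_mul _).symm⟩
    obtain ⟨σ, w⟩ := aut h st' m
    exact ⟨σ, ⟨_, m, w⟩, key σ ρ _ 1 (one_mem _) (by simpa using w) h2 fun i => by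
      rw [u2, ← hv]; rfl⟩

end Vale.Agent.P283R.Cg
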