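import Vale.Agent.P283R.Cg.Sol
import Vale.Agent.P283R.Cx.All
import Vale.Agent.P283R.Cx.Topc

/-!
# P283R, block CG: the theorem for the finite groups, at one place
-/

open Set

noncomputable section

namespace Vale.Agent.P283R.Cg

open Vale.Agent.P287D Vale.Agent.P283M Vale.Agent.P297Z Vale.Agent.P283R.Cx

section

variable {F : Type} [Field F] [Algebra ℂ F] {k N : ℕ}

/-- the ring `R` is a finite quotient of a complete intersection, and the torsion subgroups of the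
torus lift -/
def LQt (K : Type) [Field K] [Algebra K F] (d : ℕ) (t : Fin k → F) (R : Subalgebra ℂ F) : Prop :=
  ∀ r : ℕ, 0 < r → ∀ G : Subgroup (F ≃ₐ[ℂ] F), (G : Set _) = Gr K t r → LQ (d + k) G R

variable {K : Type} [Field K] [Algebra ℂ K] [Algebra K F]

/-- the precise form of `CorAt` -/
def CorAp (T : Set (Pl K)) (D : Pl K → Fin k → ℤ) (s : Fin N → K) (a : Fin N → Fin k → ℤ)
    {d : ℕ} (y : Fin d → K) (t : Fin k → F) (q : ℕ) (ε : ℝ) (m : ℕ) : Prop :=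
  ∀ (h g : K) (δ b : Fin k → ℤ) (r : ℕ), h ≠ 0 → g ≠ 0 → g ∈ Sp s a b →
    (∀ E ∈ T, (E.ord h + δ ⬝ᵥ D E : ℤ) = q * kap y E + (E.ord g + b ⬝ᵥ D E : ℤ)) → 0 < r →
    (∀ V : Pl F, (∀ x ∈ Rg s a t, x ∈ V.ring) → 0 ≤ lt y t V - (V.ord (hm t h δ) : ℝ) / q ∧
      0 < lt y t V - (V.ord (hm t h δ) : ℝ) / q + (V.ord (hm t g b) : ℝ) / q) →
    ∀ U : Pl F, (∀ x ∈ Rg s a t, x ∈ U.ring) →
    (∀ G : Subgroup (F ≃ₐ[ℂ] F), (G : Set _) = Gr K t r → ∀ V : Pl F,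
      (∀ x ∈ Rg s a t, x ∈ V.ring ∧ (U.rd x = 0 ↔ V.rd x = 0)) → ∀ e : ℕ, 0 < e → Dv G V e →
        ε * e ≤ lt y t V - (V.ord (hm t h δ) : ℝ) / q) →
    ∃ n : Fin N → ℕ, (∀ i, (r : ℤ) ∣ dg a n i + m * δ i) ∧
      ∑ j, (n j : ℝ) * U.ord (hm t (s j) (a j)) < q * m * (lt y t U - (U.ord (hm t h δ) : ℝ) / q)

theorem CorAp.at [IsScalarTower ℂ K F] {T : Set (Pl K)} {D : Pl K → Fin k → ℤ} {s : Fin N → K}
    {a : Fin N → Fin k → ℤ} {d q m : ℕ} {y : Fin d → K} {t : Fin k → F} {ε : ℝ} (e0 : 0 < ε)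
    (x : Ext K d t) (fy : Frm y) (H : CorAp T D s a y t q ε m) : CorAt T D s a y t q ε m := by
  intro h g δ b r h0 g0 hg he r0 hy U hU
  obtain ⟨G, g0', -⟩ := grp K F d k y t x fy r r0
  refine H h g δ b r h0 g0 hg he r0 (fun V hV => ?_) U hU
    fun G hG V hV => hy G hG V fun x hx => (hV x hx).1
  have a := e0.trans_le (by simpa using hy G g0' V hV 1 one_pos fun _ _ _ => by simp)
  have b : (0 : ℝ) ≤ V.ord (hm t g b) :=
    Int.cast_nonneg (Pl.ord_nonneg_of_mem _ (hV _ (mem_Rg x.ind.ne_zero hg)))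
  exact ⟨by linarith, by linarith [div_nonneg b (Nat.cast_nonneg q : (0 : ℝ) ≤ q)]⟩

end

/-- **CORG** -/
def CORG : Prop := ∀ (d k q : ℕ) (ε : ℝ), 0 < q → 0 < ε → ∃ m : ℕ, 2 ≤ m ∧
  ∀ (K F : Type) [Field K] [Algebra ℂ K] [Field F] [Algebra ℂ F] [Algebra K F]
    [IsScalarTower ℂ K F] (N : ℕ) (y : Fin d → K) (t : Fin k → F) (T : Set (Pl K))
    (D : Pl K → Fin k → ℤ) (s : Fin N → K) (a : Fin N → Fin k → ℤ), Ext K d t → Frm y →
    Cox T D s a → LQt K d t (Rg s a t) → CorAp T D s a y t q ε m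

theorem corg : CORG := by
  intro d k q ε q0 e0
  obtain ⟨n₀, n0, H⟩ := solq (d + k) q ε q0 e0
  refine ⟨2 * n₀, by omega, ?_⟩
  intro K F _ _ _ _ _ _ N y t T D s a x fy cx lq h g δ b r h0 g0 hg he r0 lk U hU hy
  have ht := x.ind.ne_zero
  have A := aff K F d k y t x fy _ T D s a cx
  have M := nor K F d k y t x fy _ T D s a cx
  obtain ⟨G, g0', g1, g2, g3, g4⟩ := grp K F d k y t x fy r r0
  obtain ⟨l1, l2⟩ := lar K F d k y t x fy r r0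
  obtain ⟨p, hp⟩ := Tq.exists_cen hU
  refine Cr.back ht cx.ne h0 q0 r0 (by positivity) A M g4 l2 hp
    (H (q * (2 * n₀)) (by positivity) ((dvd_mul_left _ _).mul_left _) (dvd_mul_right _ _) F G _ p
      _ _ _ (hm t g b) (Cr.pr ht h0 q0 r0 A M g1 (g2 _ s a) g3 l1) (lq r r0 G g0') (mem_Rg ht hg)
      (hm_ne ht g0 _) (fun P ⟨p', c⟩ => (Cr.eqn ht h0 g0 q0 r0 hg he
        (pdv K F d k y t x fy _ T D s a cx) (kah K F d k y t x fy _ T D s a cx) l2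
        (Hr.cen_prime c.1)).2.2 P ⟨p', le_rfl, c⟩) (fun V c e e1 v => ?_) fun V hV => ?_)
  · rw [Cr.ld_tw ht h0 q0 r0 l2]
    exact hy G g0' V (fun z hz => ⟨(c ⟨z, hz⟩).1, (hp ⟨z, hz⟩).2.symm.trans (c ⟨z, hz⟩).2⟩) e e1 v
  · rw [Cr.ld_tw ht h0 q0 r0 l2]
    exact lk V hV

/-- **the tier statement**, birational case -/
theorem qg (n k q : ℕ) (ε : ℝ) (q0 : 0 < q) (e0 : 0 < ε) : ∃ M : ℕ, 1 ≤ M ∧
    ∀ (K F : Type) [Field K] [Algebra ℂ K] [Field F] [Algebra ℂ F] [Algebra K F]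
      [IsScalarTower ℂ K F] (u : Finset K) (Λ Γ Γ' : BD K) (D : Pl K → Fin k → ℤ) (N : ℕ)
      (s : Fin N → K) (a : Fin N → Fin k → ℤ) (t : Fin k → F), Ext K (n + 1) t → Dat n u Λ Γ Γ' →
      Cox (Tt n u Λ) D s a → LQt K (n + 1) t (Rg s a t) → (∀ e, ∃ φ ∈ Sp s a e, φ ≠ 0) →
      (∃ h e, Eqv (Tt n u Λ) D (cn K (n + 1)) h e) →
      (∃ h e, Eqv (Tt n u Λ) D ((q : ℝ) • -dsc (n + 1) Γ) h e) →
      (∀ P ∈ Tt n u Λ, dsc (n + 1) Γ P ≤ 0) → (∀ P, Ov u P → ε ≤ 1 + dsc (n + 1) Γ P) →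
      NefO n K u (-Γ) → Cpl n M u Λ Γ := by
  have e1 := lt_min e0 one_pos
  obtain ⟨m, m2, H⟩ := corg (n + 1) k q (min ε 1) q0 e1
  exact ⟨q * m, Nat.mul_pos q0 (by omega), fun K F _ _ _ _ _ _ u Λ Γ Γ' D N s a t x A cx lq =>
    Cx.topc grd lar neg dwn hor lif fin bak q0 e0 m2 x
      (fun y hy => (H K F N y t _ D s a x hy cx lq).at e1 x hy) A cx⟩

end Vale.Agent.P283R.Cg
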