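import Vale.Agent.P283R.Cg.St
import Vale.Agent.P283R.Cg.Cor
import Vale.Agent.P283R.Sl.Un

/-!
# P283R, block CG: the tier statement and the scheme side
-/

open Set CategoryTheory AlgebraicGeometry

noncomputable section

namespace Vale.Agent.P283R.Cg

open Vale.Agent.P287D Vale.Agent.P283M Vale.Agent.P297Z

section

open Vale.Agent.P283R.Cx

variable {K : Type} [Field K] [Algebra ℂ K] {k n : ℕ} {u : Finset K} {Λ Γ Γ' : BD K}
  {D : Fin k → Pl K → ℤ}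

theorem fin_of (d : Dat n u Λ Γ Γ') (h : ∀ i, {P | Ov u P ∧ On n Λ P ∧ D i P ≠ 0}.Finite) (φ : K)
    (e : Fin k → ℤ) : {P | P ∈ Tt n u Λ ∧ P.ord φ + (e ⬝ᵥ fun i => D i P) ≠ 0}.Finite :=
  ((To.Cv.fin_car d (dv_mem_Car φ)).union (finite_iUnion h)).subset fun P ⟨t, z⟩ => by
    by_contra w
    simp only [mem_union, mem_iUnion, mem_ofPred_eq, not_or, not_exists, not_and, not_not] at w
    have b : P.ord φ = 0 := Int.cast_eq_zero.1 (w.1 t.2)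
    exact z (by simp [b, dotProduct, fun i => w.2 i t.1 t.2])

/-- denominators from the base -/
theorem den0 (d : Dat n u Λ Γ Γ') (b : Cox.Bir u)
    (h : ∀ i, {P | Ov u P ∧ On n Λ P ∧ D i P ≠ 0}.Finite) (φ : K) (e : Fin k → ℤ) :
    ∃ ψ ∈ Sec (Tt n u Λ) (fun P i => D i P) 0, ψ ≠ 0 ∧
      φ * ψ ∈ Sec (Tt n u Λ) (fun P i => D i P) e := by
  obtain ⟨x, x1, x0, hx⟩ := Ad.clr b (fin_of d h φ e) (fun P t => t.1.1)
    fun P => -(P.ord φ + e ⬝ᵥ fun i => D i P)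
  have p : ∀ P ∈ Tt n u Λ, 0 ≤ P.ord x := fun P t => Pl.ord_nonneg_of_mem _ (Ad.adj t.1 x1)
  refine ⟨x, fun _ P t => by simpa using p P t, x0, fun z P t => ?_⟩
  rw [Pl.ord_mul _ (left_ne_zero_of_mul z) x0]
  beta_reduce
  have := p P t
  by_cases w : P.ord φ + (e ⬝ᵥ fun i => D i P) = 0
  · omega
  · have := hx P ⟨t, w⟩
    omega

/-- the tier statement, birational case -/
theorem qgAt_of (A : ADP) (n : ℕ) : QgAt (fun _ _ _ u => Cox.Bir u) n := fun k q hq ε hε => by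
  obtain ⟨M, M1, H⟩ := qg n k q ε hq hε
  refine ⟨M, M1, fun K _ _ u Λ Γ Γ' D d b h g h1 h2 h3 h4 h5 => ?_⟩
  obtain ⟨F, _, _, _, _, t, N, s, a, x, cx, lq⟩ := A K (n + 1) k _ _ d.ff g (fin_of d h)
    fun φ e => ⟨0, (add_zero e).symm ▸ den0 d b h φ e⟩
  refine H K F u Λ Γ Γ' _ N s a t x d cx (fun r r0 G hG => lq r G r0 hG) (fun e => ?_)
    (Ad.eqv h1) (Ad.eqv h2) (fun P t => h4 P t.1 t.2) h3 h5
  obtain ⟨ψ, -, z, w⟩ := den0 d b h 1 e
  rw [one_mul] at w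
  exact ⟨ψ, (cx.sec e ψ z).2 (w z), z⟩

end

open Vale.Agent.P289 (Pt St toRat DForm dimension)
open Vale.Agent.P283M.Stm Vale.Agent.P283M.Stm.Var Vale.Agent.P283M.Br Vale.Agent.P283R.Sch
open Vale.Agent.P283R.Cox

/-- the scheme statement; the contraction is birational unless `b` fails -/
def QG (b : Prop) : Prop :=
  ∀ d k q : ℕ, 1 ≤ d → 1 ≤ q → ∀ ε : ℝ, 0 < ε →
    ∃ n : ℕ, 1 ≤ n ∧ ∀ (X Z : Var) (f : X.X ⟶ Z.X) (ω : DForm ℂ X.K d) (B : X.QDiv)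
      (z : Pt Z.X), dimension X.str = d → ω.Nonzero → Pair (ε ≤ ·) ⊤ ω B →
      Contraction f → FanoType f ω → NefOver f (-logCan ω B) →
      IsClosed ({z} : Set (Pt Z.X)) → (b → Stm.Birational f) →
      (∃ (V : Z.X.Opens) (D : Fin k → X.PrimeDiv →₀ ℤ), IsAffineOpen V ∧ z ∈ V ∧
        Sl.GradedQuot (fun m => {φ : X.K | φ ≠ 0 → ∀ E : X.PrimeDiv, E.1 ∈ f ⁻¹ᵁ V →
          0 ≤ ord φ E + ∑ i, m i * D i E}) ∧ InSpan (f ⁻¹ᵁ V) D (logCan ω 0) ∧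
        InSpan (f ⁻¹ᵁ V) D fun E => q * B E) →
      HasKltComplement f ω B n z

/-- the scheme side -/
theorem sch {b : Prop} (q : ∀ n, QgAt (fun _ _ _ u => b → Bir u) n) : QG b := by
  intro d k r hd hr ε hε
  obtain ⟨n, rfl⟩ : ∃ n, d = n + 1 := ⟨d - 1, by omega⟩
  obtain ⟨M, M1, hM⟩ := q n k r hr ε hε
  refine ⟨M, M1, fun X Z f ω B z hdim hω hB hf hF hn hz hp ⟨V, D, hV, zV, h1, h2, h3⟩ => ?_⟩
  obtain ⟨u, bs⟩ := basV hf hz hV zV
  have hK := ffd X _ hdim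
  obtain ⟨Λ, Γ, Γ', a, on, b, b', c, e⟩ := dataW hK hω hB hf hF bs
  obtain ⟨j, j0, fr⟩ := frm X _ hK ω hω
  choose Q e' o using pl_of (X := X) plc
  refine e M M1 (hM X.K u Λ Γ Γ' (fun i => up (D i)) a (fun w x => ?_)
    (fun i => ((D i).support.finite_toSet.image Q).subset ?_) ?_
    (sp_of bs on h2 j0 fun P E _ dm => ?_) (sp_of bs on h3 one_ne_zero fun P E c dm => ?_) b
    ((all_iff bs on (p := fun E => 0 ≤ B E) fun P E c dm => ?_).1 fun E _ => hB.1 E trivial)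
    (c hn))
  · obtain ⟨p, hp⟩ := hp w
    obtain ⟨A, χ, hA⟩ := P283R.Br.exists_bs hf hp hV zV hz
    obtain ⟨a, ha, b, hb, h⟩ := hA.frK hV zV x
    exact ⟨a, bs.con a ((hA.mem a).1 ha), b, bs.con b ((hA.mem b).1 hb), h⟩
  · rintro P ⟨a, b, c⟩
    obtain ⟨x, hx, dm⟩ := bs.ctr P.ring P.con a
    rw [up_eq (E := ⟨x, (on P x hx dm).1 b⟩) _ dm] at c
    refine ⟨_, Finsupp.mem_support_iff.2 c, Pl.ext' (congrArg _ (Pl.eq_of_le'
      (v := (Q _).toPlace) (w := P.toPlace) fun g hg => (dm g ((e' _ g).1 hg)).1))⟩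
  · refine (congrArg Sl.GradedQuot (funext fun m => Set.ext fun φ => imp_congr_right fun _ =>
      (all_iff bs on (q := fun P => 0 ≤ P.ord φ + cf (fun i => up (D i)) m P)
        fun P E _ dm => by rw [cf_eq D m dm, ord_eq dm]).trans
        ⟨fun H P t => H P t.1 t.2, fun H P o c => H P ⟨o, c⟩⟩)).mp h1
  · rw [← fr X _ E P (is_of_dom dm) (ord_eq dm), logCan]
    simp
  · simp [b' P E c dm]
  · rw [b' P E c dm, neg_nonpos, Rat.cast_nonneg]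

theorem qG_of (A : ADP) : QG True := sch fun n k q hq ε hε =>
  (qgAt_of A n k q hq ε hε).imp fun _ h => ⟨h.1, fun K _ _ u Λ Γ Γ' D d b =>
    h.2 K u Λ Γ Γ' D d (b trivial)⟩

end Vale.Agent.P283R.Cg

namespace Vale.Agent.P283R.Sl

open Var

theorem on_cq {b : Prop} (h : Cg.QG b) (k : ℕ) {q : ℕ} (hq : 1 ≤ q) :
    On fun _ _ _ f ω B z => FanoType f ω ∧ NefOver f (-logCan ω B) ∧ (b → ∃ p, IsPull f p) ∧
      CoxQuot k q f ω B z := by
  intro d hd ε hε R hR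
  obtain ⟨n, hn, H⟩ := h d k q hd hq ε hε
  exact ⟨n, hn, fun X Z f ω B z a b c _ s t u => (has_iff f ω B n z).2
    (H X.o Z.o f ω B z a b ((pair_iff _ _ ω B).1 c) s ((fanoType_iff f ω).1 u.1)
      ((nefOver_iff f _).1 u.2.1) t u.2.2.1 u.2.2.2)⟩

end Vale.Agent.P283R.Sl
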