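import Vale.Agent.P283R.Cg.Z0
import Vale.Agent.P283R.Cg.Adp
import Vale.Agent.P283R.Cg.Grq
import Vale.Agent.P283R.Sl.Cg3

/-!
# P283R, block CG: rings of sections which are graded quotients of complete intersections
-/

namespace Vale.Agent.P283R

theorem Cg.adp : Cg.ADP := Cg.adp_of Cg.grq

theorem Cg.qG : Cg.QG True := Cg.qG_of Cg.adp

theorem Cg.qG0 : Cg.QG0 := Cg.qG0_of Cg.adp

namespace Sl

open Var

/-- birational contractions -/
theorem on_quo (k : ℕ) {q : ℕ} (hq : 1 ≤ q) :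
    On fun _ _ _ f ω B z => FanoType f ω ∧ NefOver f (-logCan ω B) ∧ (∃ p, IsPull f p) ∧
      CoxQuo k q f ω B z :=
  (on_cq Cg.qG k hq).mono fun _ _ _ f ω B z u =>
    ⟨u.1, u.2.1, fun _ => u.2.2.1, (coxQuo_iff k q f ω B z).1 u.2.2.2⟩

/-- all contractions -/
theorem on_quo0 (k : ℕ) {q n₀ : ℕ} (hq : 1 ≤ q) (n0 : 1 ≤ n₀) :
    On fun _ _ _ f ω B z => FanoType f ω ∧ NefOver f (-logCan ω B) ∧
      (∃ z', HasKltComplement f ω B n₀ z') ∧ CoxQuo k q f ω B z :=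
  (on_cq0 Cg.qG0 k hq n0).mono fun _ _ _ f ω B z u =>
    ⟨u.1, u.2.1, u.2.2.1, (coxQuo_iff k q f ω B z).1 u.2.2.2⟩

end Sl

end Vale.Agent.P283R
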