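import Vale.Agent.P283R.Cx.Aclu
import Vale.Agent.P283R.Tp.Nt
import Vale.Agent.P283R.Tp.Fre
import Vale.Agent.P283R.Tp.Ram
import Vale.Agent.P283R.Tp.Top0

/-!
# P283R, block CG: finite quotients of complete intersections with a finite group
-/

open Set

noncomputable section

namespace Vale.Agent.P283R.Cg

open Vale.Agent.P287D Vale.Agent.P297Z

/-- `Spec R` is a quotient `Y / G₀` of a complete intersection, and the action of `H` comes from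
the action of a finite group `G` on `Y` -/
def LQ (N : ℕ) {F : Type} [Field F] [Algebra ℂ F] (H : Subgroup (F ≃ₐ[ℂ] F))
    (R : Subalgebra ℂ F) : Prop :=
  ∃ (L : Type) (_ : Field L) (_ : Algebra ℂ L) (_ : Algebra F L) (_ : IsScalarTower ℂ F L)
    (G₀ G : Subgroup (L ≃ₐ[ℂ] L)) (S : Subalgebra ℂ L) (c : ℕ) (F' : Type) (_ : Field F')
    (_ : Algebra ℂ F') (G' : Subgroup (F' ≃ₐ[ℂ] F')) (S' : Subalgebra ℂ F') (π : S' →ₐ[ℂ] S)
    (f : Fin c → S'), Gq N G₀ S R ∧ G₀ ≤ G ∧ Finite G ∧ Stab G S ∧ Lci N G S G' S' π f ∧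
    (∀ σ ∈ G, ∃ τ ∈ H, ∀ x, σ (algebraMap F L x) = algebraMap F L (τ x)) ∧
    ∀ τ ∈ H, ∃ σ ∈ G, ∀ x, σ (algebraMap F L x) = algebraMap F L (τ x)

/-- **SOLQ**: invariant sections on the quotients -/
def SOLQ : Prop := ∀ (N Q : ℕ) (ε : ℝ), 0 < Q → 0 < ε → Unif Q fun n =>
  ∀ (F : Type) [Field F] [Algebra ℂ F] (H : Subgroup (F ≃ₐ[ℂ] F)) (R : Subalgebra ℂ F)
    (p : Ideal R) (y : Fin N → F) (m : ℕ) (g h : F), Pr N H R y m g → LQ N H R → h ∈ R → h ≠ 0 →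
    (∀ P, PD R P → (1 - ld y m g P) * Q = P.ord h) → Hyp ε H R p y m g →
    (∀ U : Pl F, (∀ x ∈ R, x ∈ U.ring) → 0 ≤ ld y m g U ∧ 0 < ld y m g U + U.ord h / Q) →
    Sol n H R p (PD R) y m g

namespace Sq

variable {F L : Type} [Field F] [Algebra ℂ F] [Field L] [Algebra ℂ L] {N : ℕ}
  {R : Subalgebra ℂ F} {P : Pl F}

theorem pd_of (h : ∀ x ∈ R, x ∈ P.ring) (k : Prm R P) : PD R P := by
  obtain ⟨q, c⟩ := Tq.exists_cen h
  refine ⟨q, c, fun a ha => ?_⟩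
  obtain ⟨u, hu, v, hv, v0, rfl⟩ := k a ha
  exact ⟨⟨u, hu⟩, ⟨v, hv⟩, fun e => v0 ((c _).2.1 e), rfl⟩

theorem prm_of (h : PD R P) : (∀ x ∈ R, x ∈ P.ring) ∧ Prm R P := by
  obtain ⟨q, c, l⟩ := h
  refine ⟨fun x hx => (c ⟨x, hx⟩).1, fun a ha => ?_⟩
  obtain ⟨u, v, v0, rfl⟩ := l a ha
  exact ⟨u, u.2, v, v.2, fun e => v0 ((c _).2.2 e), rfl⟩

variable [Algebra F L] [IsScalarTower ℂ F L]

theorem ld_up (hF : FF F N) (hL : FF L N) {y : Fin N → F} (hy : Frm y) (m : ℕ) (g : F) {W : Pl L}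
    (l : Lies (algebraMap F L) W P) : ld (fun i => algebraMap F L (y i)) m (algebraMap F L g) W =
      W.ord (algebraMap F L P.t) * ld y m g P := by
  have e : 1 + kap (fun i => algebraMap F L (y i)) W = W.ord (algebraMap F L P.t) * (1 + kap y P) :=
    ((ram N F L (IsScalarTower.toAlgHom ℂ F L) y hF hL hy).2 W P l).2.2
  rw [ld, ld, e, l.ord g]
  push_cast
  ring

theorem le_of_dv {ε z : ℝ} (ε0 : 0 < ε) {e : ℕ} {E : ℤ} (e0 : 0 < e) (E0 : 0 < E) {T : Set ℤ}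
    (h : ∀ o ∈ T, (e : ℤ) ∣ E * o) (k : ∀ e' : ℕ, 0 < e' → (∀ o ∈ T, (e' : ℤ) ∣ o) → ε * e' ≤ z) :
    ε * e ≤ E * z := by
  lift E to ℕ using E0.le
  obtain ⟨a, b, c, ha, hb⟩ := Nat.exists_coprime e E
  generalize Nat.gcd e E = g at ha hb
  subst ha hb
  have a0 : 0 < a := Nat.pos_of_mul_pos_right e0
  have g0 : 0 < g := Nat.pos_of_mul_pos_left e0
  have b0 : 0 < b := Nat.pos_of_mul_pos_right (by exact_mod_cast E0)
  have := k a a0 fun o ho => by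
    have := h o ho
    rw [Nat.cast_mul, Nat.cast_mul, mul_right_comm] at this
    exact (Nat.isCoprime_iff_coprime.2 c).dvd_of_dvd_mul_left
      (Int.dvd_of_mul_dvd_mul_right (by exact_mod_cast g0.ne') this)
  have a1 : (0 : ℝ) < a := Nat.cast_pos.2 a0
  have b1 : (1 : ℝ) ≤ b := Nat.one_le_cast.2 b0
  have g1 : (0 : ℝ) < g := Nat.cast_pos.2 g0
  have z0 : 0 ≤ z := (mul_pos ε0 a1).le.trans this
  push_cast
  nlinarith [mul_le_mul_of_nonneg_left this g1.le, mul_nonneg (mul_nonneg g1.le z0) (sub_nonneg.2 b1)]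

end Sq

open Sq in
theorem solq : SOLQ := by
  intro N Q ε Q0 ε0
  obtain ⟨J, n₀, n0, A⟩ := Mi.aclu N Q ε Q0 ε0
  refine ⟨n₀ * Q * J.factorial, by positivity, ?_⟩
  rintro _ n1 ⟨n, rfl⟩ - F _ _ H R p y m g h pr
    ⟨L, _, _, _, _, G₀, G, S, c, F', _, _, G', S', π, f, gq, le, fi, st, l, dn, up⟩ hR h0 eq hy lk
    U hU
  have n2 : 0 < n := Nat.pos_of_mul_pos_left n1
  have hF := pr.aff.ff
  have hL := gq.aff.ff
  obtain ⟨f1, f2, -⟩ := fre N F L G₀ S R gq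
  have fx : ∀ x, Fix H x → Fix G (algebraMap F L x) := fun x hx σ hσ => by
    obtain ⟨τ, a, b⟩ := dn σ hσ
    rw [b, hx τ a]
  have dw : ∀ {W : Pl L} {V : Pl F} {q : Ideal S}, Cen S q W → Lies (algebraMap F L) W V →
      ∀ x ∈ R, x ∈ V.ring := fun c l x hx => (l x).2 (c ⟨_, (gq.mem x).1 hx⟩).1
  obtain ⟨W, lW⟩ := Pb.up_alg hL U
  obtain ⟨p', c'⟩ := Tq.exists_cen (f2 W U lW fun x hx => (hU ⟨x, hx⟩).1).1
  have pp := Hr.cen_prime c'
  obtain ⟨M, hM, le'⟩ := p'.exists_le_maximal pp.ne_top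
  have P : Pr N G S (fun i => algebraMap F L (y i)) m (algebraMap F L g) :=
    ⟨gq.aff, gq.nor, fi, st, fun i => fx _ (pr.fy i),
      (ram N F L (IsScalarTower.toAlgHom ℂ F L) y hF hL pr.fr).1, pr.pos,
      (map_ne_zero _).2 pr.ne, fx _ pr.fg⟩
  obtain ⟨B, i, s⟩ := A (n₀ * Q * n) (by positivity) ⟨Q * n, by ring⟩ ⟨n₀ * n, by ring⟩ c L F' G S
    G' S' π f p' M _ m _ (algebraMap F L h) P l pp hM le'
    ⟨⟨⟨_, (gq.mem h).1 hR⟩, 1, (Ideal.ne_top_iff_one _).1 hM.ne_top, by simp⟩,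
      (map_ne_zero _).2 h0, fun V ⟨q, _, c, lo⟩ => by
        obtain ⟨V', l'⟩ := Pb.down hF hL V
        obtain ⟨a, b⟩ := f1 V V' ⟨q, c, lo⟩ l'
        rw [ld_up hF hL pr.fr m g l', l'.ord h, b, Int.cast_one, one_mul, one_mul]
        exact eq V' (pd_of (dw c l') a)⟩
    (fun V c e e0 dv => by
      obtain ⟨V', l'⟩ := Pb.down hF hL V
      rw [ld_up hF hL pr.fr m g l']
      refine le_of_dv ε0 e0 l'.e_pos (T := {o | ∃ x, x ≠ 0 ∧ Fix H x ∧ V'.ord x = o}) ?_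
        fun e' e1 k => hy V' (fun a => ⟨dw c l' a a.2, ?_⟩) e' e1 fun x x0 hx => k _ ⟨x, x0, hx, rfl⟩
      · rintro _ ⟨x, x0, hx, rfl⟩
        rw [← l'.ord x]
        exact dv _ ((map_ne_zero _).2 x0) (fx x hx)
      · exact (hU a).2.trans ((Tq.rd_lies lW (hU a).1).symm.trans
          (((c' ⟨_, (gq.mem a).1 a.2⟩).2.symm.trans (c ⟨_, (gq.mem a).1 a.2⟩).2).trans
            (Tq.rd_lies l' (dw c l' a a.2)))))
    fun q _ V c => by
      obtain ⟨V', l'⟩ := Pb.down hF hL V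
      obtain ⟨a, b⟩ := lk V' (dw c l')
      have e : (0 : ℝ) < V.ord (algebraMap F L V'.t) := by exact_mod_cast l'.e_pos
      rw [ld_up hF hL pr.fr m g l', l'.ord h, Int.cast_mul, mul_div_assoc, ← mul_add]
      exact ⟨mul_nonneg e.le a, mul_pos e b⟩
  obtain ⟨φ, φ0, hφ, a, b⟩ := nt N J _ L G B S p' _ m _ (by positivity) P pp i s W c'
  obtain ⟨ψ, rfl⟩ := (gq.fix φ).1 fun σ hσ => hφ σ (le hσ)
  rw [mul_right_comm] at a b
  refine ⟨ψ, fun e => φ0 (by rw [e, map_zero]), fun τ hτ => ?_, fun V hV => ?_, ?_⟩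
  · obtain ⟨σ, u, v⟩ := up τ hτ
    exact (algebraMap F L).injective ((v ψ).symm.trans (hφ σ u))
  · obtain ⟨V', l'⟩ := Pb.up_alg hL V
    have e : (0 : ℝ) < V'.ord (algebraMap F L V.t) := by exact_mod_cast l'.e_pos
    have := a V' ((f2 V' V l' (prm_of hV).1).2 (prm_of hV).2)
    rw [l'.ord g, l'.ord ψ, Int.cast_mul, Int.cast_mul, mul_div_assoc, mul_div_assoc] at this
    exact le_of_mul_le_mul_left this e
  · have e : (0 : ℝ) < W.ord (algebraMap F L U.t) := by exact_mod_cast lW.e_pos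
    rw [ld_up hF hL pr.fr _ ψ lW] at b
    exact (mul_pos_iff_of_pos_left e).1 b

end Vale.Agent.P283R.Cg
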