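import Vale.Agent.P283R.Cg.Sol
import Vale.Agent.P283R.Cx.Br
import Vale.Agent.P283R.Cx.St
import Vale.Agent.P283R.Sl.Cg

/-!
# P283R, block CG: rings of sections which are graded quotients, the statements
-/

open Set

noncomputable section

namespace Vale.Agent.P283R.Cg

open Vale.Agent.P287D Vale.Agent.P283M Vale.Agent.P283R.Cx

section defs

variable {K : Type} [Field K] [Algebra ℂ K] {k : ℕ}

/-- the sections of degree `e` -/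
def Sec (T : Set (Pl K)) (D : Pl K → Fin k → ℤ) (e : Fin k → ℤ) : Set K :=
  {φ | φ ≠ 0 → ∀ P ∈ T, 0 ≤ P.ord φ + e ⬝ᵥ D P}

/-- denominators -/
def Den (T : Set (Pl K)) (D : Pl K → Fin k → ℤ) : Prop :=
  ∀ φ e, ∃ e', ∃ ψ ∈ Sec T D e', ψ ≠ 0 ∧ φ * ψ ∈ Sec T D (e + e')

end defs

/-- **GRQ**: the finite group `G θ(μ)` -/
def GRQ : Prop := ∀ (K F L S : Type) [Field K] [Algebra ℂ K] [Field F] [Algebra ℂ F] [Algebra K F]
  [IsScalarTower ℂ K F] [Field L] [Algebra ℂ L] [Algebra F L] [IsScalarTower ℂ F L] [CommRing S]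
  [Algebra ℂ S] (d k N c e r : ℕ) (t : Fin k → F) (s : Fin N → K) (a : Fin N → Fin k → ℤ)
  (q : S →ₐ[ℂ] L) (f : Fin c → S) (G : Subgroup (S ≃ₐ[ℂ] S)) (θ : (Fin k → ℂˣ) →* (S ≃ₐ[ℂ] S))
  (H : Subgroup (F ≃ₐ[ℂ] F)), Ext K d t → Quo q f G (Rg s a t) → 0 < e →
    (∀ τ, ∀ g ∈ G, θ τ * g = g * θ τ) → (∀ τ x, q x = 0 → q (θ τ x) = 0) →
    (∀ τ (φ : K) m x, algebraMap F L (hm t φ m) = q x →
      q (θ τ x) = (∏ j, τ j ^ (e * m j)) • q x) →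
    0 < r → (H : Set _) = Gr K t r → LQ (d + k) H (Rg s a t)

/-- **ADP**: from the text to the rows -/
def ADP : Prop := ∀ (K : Type) [Field K] [Algebra ℂ K] (d k : ℕ) (T : Set (Pl K))
  (D : Pl K → Fin k → ℤ), FF K d → Sl.GradedQuot (Sec T D) →
    (∀ (φ : K) e, {P | P ∈ T ∧ P.ord φ + e ⬝ᵥ D P ≠ 0}.Finite) → Den T D →
    ∃ (F : Type) (_ : Field F) (_ : Algebra ℂ F) (_ : Algebra K F) (_ : IsScalarTower ℂ K F)
      (t : Fin k → F) (N : ℕ) (s : Fin N → K) (a : Fin N → Fin k → ℤ), Ext K d t ∧ Cox T D s a ∧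
      ∀ (r : ℕ) (H : Subgroup (F ≃ₐ[ℂ] F)), 0 < r → (H : Set _) = Gr K t r →
        LQ (d + k) H (Rg s a t)

/-- the statement on the tier, dimension `n + 1`; `b` is the clause on the contraction -/
def QgAt (b : ∀ (K : Type) [Field K] [Algebra ℂ K], Finset K → Prop) (n : ℕ) : Prop :=
  ∀ k q : ℕ, 1 ≤ q → ∀ ε : ℝ, 0 < ε →
  ∃ M : ℕ, 1 ≤ M ∧ ∀ (K : Type) [Field K] [Algebra ℂ K] (u : Finset K) (Λ Γ Γ' : BD K)
    (D : Fin k → Pl K → ℤ), Dat n u Λ Γ Γ' → b K u →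
    (∀ i, {P | Ov u P ∧ On n Λ P ∧ D i P ≠ 0}.Finite) →
    Sl.GradedQuot (Sec (Tt n u Λ) fun P i => D i P) → Cox.Sp n u Λ D (cn K (n + 1)) →
    Cox.Sp n u Λ D ((q : ℝ) • -dsc (n + 1) Γ) → (∀ P, Ov u P → ε ≤ 1 + dsc (n + 1) Γ P) →
    (∀ P, Ov u P → On n Λ P → dsc (n + 1) Γ P ≤ 0) → NefO n K u (-Γ) → Cpl n M u Λ Γ

end Vale.Agent.P283R.Cg
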