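import Vale.Agent.P283R.Cg.Top
import Vale.Agent.P283R.Cg.Tpy
import Vale.Agent.P283R.Cx.Z0
import Vale.Agent.P283R.Cx.Big

/-!
# P283R, block CG, step 2: all contractions, from a complement over one point of the base
-/

open Set CategoryTheory AlgebraicGeometry

noncomputable section

namespace Vale.Agent.P283R.Cg

open Vale.Agent.P287D Vale.Agent.P283M Vale.Agent.P297Z

section

open Vale.Agent.P283R.Cx

variable {K : Type} [Field K] [Algebra ℂ K] {k n : ℕ} {u : Finset K} {Λ Γ Γ' : BD K}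
  {D : Fin k → Pl K → ℤ}

/-- denominators -/
theorem denY (d : Dat n u Λ Γ Γ') (h : ∀ i, {P | Ov u P ∧ On n Λ P ∧ D i P ≠ 0}.Finite)
    (h1 : Cox.Sp n u Λ D (cn K (n + 1))) : Den (Tt n u Λ) fun P i => D i P := fun φ e => by
  obtain ⟨x, e₀, x0, hx⟩ := Ad.eqv h1
  obtain ⟨m, ψ, ψ0, w⟩ := big n K u Λ Γ Γ' (fun P => max 0 (-(P.ord φ + e ⬝ᵥ fun i => D i P))) d
    ((fin_of d h φ e).subset fun P ⟨t, z⟩ => ⟨t, fun v => z (by simp [v])⟩)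
  have z : ψ / x ^ m ≠ 0 := div_ne_zero ψ0 (pow_ne_zero _ x0)
  have v : ∀ P ∈ Tt n u Λ, max 0 (-(P.ord φ + e ⬝ᵥ fun i => D i P)) ≤
      P.ord (ψ / x ^ m) + -((m : ℤ) • e₀) ⬝ᵥ fun i => D i P := fun P t => by
    have := w P t
    rw [hx P t] at this
    rw [Pl.ord_div _ ψ0 (pow_ne_zero _ x0), Pl.ord_pow, neg_dotProduct, smul_dotProduct,
      smul_eq_mul, ← Int.cast_le (R := ℝ)]
    refine this.trans_eq ?_
    push_cast
    ring
  refine ⟨_, _, fun _ P t => (le_max_left _ _).trans (v P t), z, fun φ0 P t => ?_⟩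
  have := (le_max_right _ _).trans (v P t)
  rw [Pl.ord_mul _ (left_ne_zero_of_mul φ0) z, add_dotProduct]
  beta_reduce
  omega

/-- the tier side, up to the horizontal places -/
theorem tier (A : ADP) (n k q m' : ℕ) (ε : ℝ) (hq : 0 < q) (hε : 0 < ε) (m1 : 1 ≤ m') :
    ∃ M : ℕ, 1 ≤ M ∧ ∀ (K : Type) [Field K] [Algebra ℂ K] (u : Finset K) (Λ Γ Γ' : BD K)
    (D : Fin k → Pl K → ℤ), Dat n u Λ Γ Γ' →
    (∀ (F : Type) [Field F] [Algebra ℂ F] [Algebra K F] [IsScalarTower ℂ K F] (t : Fin k → F)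
      (N : ℕ) (s : Fin N → K) (a : Fin N → Fin k → ℤ), Ext K (n + 1) t →
      Cox (Tt n u Λ) (fun P i => D i P) s a → LQt K (n + 1) t (Rg s a t) →
      HzA n q m' s a u Λ Γ Γ' (fun P i => D i P) ε) →
    (∀ i, {P | Ov u P ∧ On n Λ P ∧ D i P ≠ 0}.Finite) →
    Sl.GradedQuot (Sec (Tt n u Λ) fun P i => D i P) → Cox.Sp n u Λ D (cn K (n + 1)) →
    Cox.Sp n u Λ D ((q : ℝ) • -dsc (n + 1) Γ) → (∀ P, Ov u P → ε ≤ 1 + dsc (n + 1) Γ P) →
    (∀ P, Ov u P → On n Λ P → dsc (n + 1) Γ P ≤ 0) → NefO n K u (-Γ) → Cpl n M u Λ Γ := by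
  obtain ⟨m, m2, H⟩ := corg (n + 1) k q ε hq hε
  refine ⟨q * (m * m'), Nat.mul_pos hq (Nat.mul_pos (by omega) m1),
    fun K _ _ u Λ Γ Γ' D d hz h g h1 h2 h3 h4 h5 => ?_⟩
  obtain ⟨F, _, _, _, _, t, N, s, a, x, cx, lq⟩ := A K (n + 1) k _ _ d.ff g (fin_of d h)
    (denY d h h1)
  have lq' : LQt K (n + 1) t (Rg s a t) := fun r r0 G hG => lq r G r0 hG
  exact topy hq hε m2 m1 x (fun y hy => H K F N y t _ _ s a x hy cx lq')
    (hz F t N s a x cx lq') d cx (Ad.eqv h1) (Ad.eqv h2) (fun P t => h4 P t.1 t.2) h3 h5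

end

open Vale.Agent.P289 (Pt St toRat DForm dimension)
open Vale.Agent.P283M.Stm Vale.Agent.P283M.Stm.Var Vale.Agent.P283M.Br Vale.Agent.P283R.Sch
open Vale.Agent.P283R.Cox

/-- the index depends on the index `n₀` of a klt complement over some point of the base -/
def QG0 : Prop :=
  ∀ d k q n₀ : ℕ, 1 ≤ d → 1 ≤ q → 1 ≤ n₀ → ∀ ε : ℝ, 0 < ε →
    ∃ n : ℕ, 1 ≤ n ∧ ∀ (X Z : Var) (f : X.X ⟶ Z.X) (ω : DForm ℂ X.K d) (B : X.QDiv)
      (z : Pt Z.X), dimension X.str = d → ω.Nonzero → Pair (ε ≤ ·) ⊤ ω B →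
      Contraction f → FanoType f ω → NefOver f (-logCan ω B) →
      IsClosed ({z} : Set (Pt Z.X)) → (∃ z', HasKltComplement f ω B n₀ z') →
      (∃ (V : Z.X.Opens) (D : Fin k → X.PrimeDiv →₀ ℤ), IsAffineOpen V ∧ z ∈ V ∧
        Sl.GradedQuot (fun m => {φ : X.K | φ ≠ 0 → ∀ E : X.PrimeDiv, E.1 ∈ f ⁻¹ᵁ V →
          0 ≤ ord φ E + ∑ i, m i * D i E}) ∧ InSpan (f ⁻¹ᵁ V) D (logCan ω 0) ∧
        InSpan (f ⁻¹ᵁ V) D fun E => q * B E) →
      HasKltComplement f ω B n z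

theorem qG0_of (A : ADP) : QG0 := by
  intro d k r n₀ hd hr n0 ε hε
  obtain ⟨n, rfl⟩ : ∃ n, d = n + 1 := ⟨d - 1, by omega⟩
  obtain ⟨M, M1, hM⟩ := tier A n k r n₀ ε hr hε n0
  refine ⟨M, M1, fun X Z f ω B z hdim hω hB hf hF hn hz ⟨z', h0⟩ ⟨V, D, hV, zV, h1, h2, h3⟩ => ?_⟩
  obtain ⟨u, bs⟩ := basV hf hz hV zV
  have hK := ffd X _ hdim
  obtain ⟨Λ, Γ, Γ', a, on, b, b', c, e⟩ := dataW hK hω hB hf hF bs
  obtain ⟨j, j0, fr⟩ := frm X _ hK ω hω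
  choose Q e' o using pl_of (X := X) plc
  refine e M M1 (hM X.K u Λ Γ Γ' (fun i => up (D i)) a
    (fun _ _ _ _ _ _ _ _ _ _ _ _ _ _ _ _ _ Y => Cx.hz0 hr n0 Y (Cx.gen_of hK hω hf bs on b' n0 h0))
    (fun i => ((D i).support.finite_toSet.image Q).subset ?_) ?_
    (sp_of bs on h2 j0 fun P E _ dm => ?_) (sp_of bs on h3 one_ne_zero fun P E c dm => ?_) b
    ((all_iff bs on (p := fun E => 0 ≤ B E) fun P E c dm => ?_).1 fun E _ => hB.1 E trivial)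
    (c hn))
  · rintro P ⟨a, b, c⟩
    obtain ⟨x, hx, dm⟩ := bs.ctr P.ring P.con a
    rw [up_eq (E := ⟨x, (on P x hx dm).1 b⟩) _ dm] at c
    refine ⟨_, Finsupp.mem_support_iff.2 c, Pl.ext' (congrArg _ (Pl.eq_of_le'
      (v := (Q _).toPlace) (w := P.toPlace) fun g hg => (dm g ((e' _ g).1 hg)).1))⟩
  · refine (congrArg Sl.GradedQuot (funext fun m => Set.ext fun φ => imp_congr_right fun _ =>
      (all_iff bs on (q := fun P => 0 ≤ P.ord φ + cf (fun i => up (D i)) m P)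
        fun P E _ dm => by rw [cf_eq D m dm, ord_eq dm]).trans
        ⟨fun H P t => H P t.1 t.2, fun H P o c => H P ⟨o, c⟩⟩)).mp h1
  · rw [← fr X _ E P (is_of_dom dm) (ord_eq dm), logCan]
    simp
  · simp [b' P E c dm]
  · rw [b' P E c dm, neg_nonpos, Rat.cast_nonneg]

end Vale.Agent.P283R.Cg

namespace Vale.Agent.P283R.Sl

open Var

theorem on_cq0 (h : Cg.QG0) (k : ℕ) {q n₀ : ℕ} (hq : 1 ≤ q) (n0 : 1 ≤ n₀) :
    On fun _ _ _ f ω B z => FanoType f ω ∧ NefOver f (-logCan ω B) ∧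
      (∃ z', HasKltComplement f ω B n₀ z') ∧ CoxQuot k q f ω B z := by
  intro d hd ε hε R hR
  obtain ⟨n, hn, H⟩ := h d k q n₀ hd hq n0 ε hε
  exact ⟨n, hn, fun X Z f ω B z a b c _ s t u => (has_iff f ω B n z).2
    (H X.o Z.o f ω B z a b ((pair_iff _ _ ω B).1 c) s ((fanoType_iff f ω).1 u.1)
      ((nefOver_iff f _).1 u.2.1) t (u.2.2.1.imp fun z' => (has_iff f ω B n₀ z').1) u.2.2.2)⟩

end Vale.Agent.P283R.Sl
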